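import Vale.Agent.P129.H189.Red

/-! A small counterexample, if there is any. -/

open Set Cardinal TopologicalSpace MeasureTheory

namespace Vale.Agent.P129.H189

universe u

/-- The quotient by the common kernel of an independent sequence of functionals. -/
theorem exists_total_quotient {𝕜 : Type} [RCLike 𝕜] {X : Type u} [NormedAddCommGroup X]
    [NormedSpace 𝕜 X] (h : ℕ → StrongDual 𝕜 X) (hli : LinearIndependent 𝕜 h) :
    ∃ N : Submodule 𝕜 X, IsClosed (N : Set X) ∧ ¬ FiniteDimensional 𝕜 (X ⧸ N) ∧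
      (∀ y, y ∈ N ↔ ∀ n, h n y = 0) ∧
      ∀ _ : IsClosed (N : Set X), ∃ h' : ℕ → StrongDual 𝕜 (X ⧸ N),
        ∀ z, (∀ n, h' n z = 0) → z = 0 := by
  let N : Submodule 𝕜 X := ⨅ n, (h n).ker
  have hNmem : ∀ y, y ∈ N ↔ ∀ n, h n y = 0 := by
    intro y; simp only [Submodule.mem_iInf, LinearMap.mem_ker, ContinuousLinearMap.coe_coe, N]
  have hN : IsClosed (N : Set X) := by
    have : (N : Set X) = ⋂ n, {y | h n y = 0} := by
      ext y; simp only [SetLike.mem_coe, hNmem, mem_iInter, mem_ofPred_eq]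
    rw [this]
    exact isClosed_iInter fun n => isClosed_eq (by (clear * -; fun_prop)) continuous_const
  have hker : ∀ n, N ≤ (h n).ker := fun n => iInf_le _ n
  let h' : ℕ → StrongDual 𝕜 (X ⧸ N) := fun n =>
    { toLinearMap := N.liftQ (h n : X →ₗ[𝕜] 𝕜) (hker n)
      cont := by
        have hq : Topology.IsQuotientMap (N.mkQ : X → X ⧸ N) := isQuotientMap_quotient_mk'
        refine hq.continuous_iff.2 ?_
        exact (h n).continuous }
  have hh' : ∀ n x, h' n (N.mkQ x) = h n x := fun n x => by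
    show N.liftQ (h n : X →ₗ[𝕜] 𝕜) (hker n) (N.mkQ x) = h n x
    simp
  have hsep : ∀ z : X ⧸ N, (∀ n, h' n z = 0) → z = 0 := by
    intro z hz
    obtain ⟨x, rfl⟩ := N.mkQ_surjective z
    refine (Submodule.Quotient.mk_eq_zero N).2 ((hNmem x).2 fun n => ?_)
    rw [← hh']; exact hz n
  have hli' : LinearIndependent 𝕜 h' := by
    refine LinearIndependent.of_comp (pull N) ?_
    have : (pull N ∘ h') = h := funext fun n => by
      ext x
      exact hh' n x
    rw [this]; exact hli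
  refine ⟨N, hN, ?_, hNmem, fun _ => ⟨h', hsep⟩⟩
  intro hf
  have : FiniteDimensional 𝕜 (StrongDual 𝕜 (X ⧸ N)) := by infer_instance
  exact (hli'.finite : Finite ℕ).false

lemma mk_eq_continuum {𝕜 : Type} [RCLike 𝕜] {Z : Type u} [NormedAddCommGroup Z]
    [NormedSpace 𝕜 Z] (hinf : ¬ FiniteDimensional 𝕜 Z) (h : ℕ → StrongDual 𝕜 Z)
    (hsep : ∀ z, (∀ n, h n z = 0) → z = 0) : #Z = 𝔠 := by
  have h0 : ∃ z : Z, z ≠ 0 := by
    by_contra hcon
    push Not at hcon
    have : Subsingleton Z := ⟨fun a b => (hcon a).trans (hcon b).symm⟩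
    exact hinf inferInstance
  obtain ⟨z, hz⟩ := h0
  refine le_antisymm ?_ ?_
  · let G : Z → ℕ → ℝ × ℝ := fun z n => (RCLike.re (h n z), RCLike.im (h n z))
    have hG : Function.Injective G := by
      intro a b hab
      rw [← sub_eq_zero]
      refine hsep _ fun n => ?_
      rw [map_sub, sub_eq_zero]
      have h1 := congrFun hab n
      exact RCLike.ext (congrArg Prod.fst h1) (congrArg Prod.snd h1)
    have h1 := Cardinal.lift_mk_le'.2 ⟨⟨G, hG⟩⟩
    simpa [mk_real] using h1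
  · let G : ℝ → Z := fun r => (r : 𝕜) • z
    have hG : Function.Injective G := by
      intro a b hab
      have h1 : ((a : 𝕜) - b) • z = 0 := by rw [sub_smul]; exact sub_eq_zero.2 hab
      rcases smul_eq_zero.1 h1 with h2 | h2
      · rw [sub_eq_zero] at h2
        exact_mod_cast h2
      · exact absurd h2 hz
    have h1 := Cardinal.lift_mk_le'.2 ⟨⟨G, hG⟩⟩
    simpa [mk_real] using h1

theorem smallCounterexample : SmallCounterexample.{u} := by
  intro 𝕜 _ hex
  -- a counterexample of least density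
  let S : Set Cardinal.{u} := {κ | ∃ (X : Type u) (_ : NormedAddCommGroup X)
    (_ : NormedSpace 𝕜 X), CompleteSpace X ∧ ¬ FiniteDimensional 𝕜 X ∧
      ¬ HasSeparableQuotient 𝕜 X ∧ dens X = κ}
  have hS : S.Nonempty := by
    obtain ⟨X, i1, i2, h1, h2, h3⟩ := hex
    exact ⟨dens X, X, i1, i2, h1, h2, h3, rfl⟩
  obtain ⟨X, i1, i2, hX1, hX2, hX3, hX4⟩ : sInf S ∈ S := csInf_mem hS
  have hmin : ∀ (Y : Type u) (_ : NormedAddCommGroup Y) (_ : NormedSpace 𝕜 Y), CompleteSpace Y →
      ¬ FiniteDimensional 𝕜 Y → ¬ HasSeparableQuotient 𝕜 Y → dens X ≤ dens Y := by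
    intro Y j1 j2 h1 h2 h3
    rw [hX4]
    exact csInf_le' ⟨Y, j1, j2, h1, h2, h3, rfl⟩
  obtain ⟨h, hli⟩ := Vale.Agent.P129.exists_linearIndependent_functionals hX2
  obtain ⟨N, hN, hNinf, -, hN3⟩ := exists_total_quotient h hli
  obtain ⟨h', hsep⟩ := hN3 hN
  have hno : ¬ HasSeparableQuotient 𝕜 (X ⧸ N) := fun hq =>
    hX3 (Vale.Agent.P129.HasSepQuot.of_quotient N hq)
  have hdens : dens (X ⧸ N) = dens X :=
    le_antisymm (dens_quotient_le N) (hmin _ _ _ inferInstance hNinf hno)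
  have hbig : Cardinal.lift.{u} nonMeagre ≤ dens (X ⧸ N) := by
    by_contra hlt
    rw [not_le] at hlt
    obtain ⟨D, hD1, hD2⟩ := exists_dense_mk_eq (X ⧸ N)
    have hι : #(D ⊕ ℕ) < Cardinal.lift.{u} nonMeagre := by
      rw [mk_sum]
      refine add_lt_of_lt aleph0_lt_lift_nonMeagre.le ?_ ?_
      · simpa [hD2] using hlt
      · simpa using aleph0_lt_lift_nonMeagre.{u}
    refine hno (Vale.Agent.P129.hasSepQuot_of_total hNinf
      (ι := D ⊕ ℕ) (isMeagre_range_of_lt hι) (Sum.elim (↑) fun _ => 0) ?_)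
    refine hD1.mono fun z hz => ?_
    exact Submodule.subset_span ⟨Sum.inl ⟨z, hz⟩, rfl⟩
  refine ⟨X ⧸ N, inferInstance, inferInstance, inferInstance, hNinf, hno, ?_,
    mk_eq_continuum hNinf h' hsep, ⟨h', hsep⟩, hbig, ?_, ?_, ?_,
    Vale.Agent.P129.exists_null_family hNinf hno⟩
  · intro Y j1 j2 h1 h2 h3
    by_contra h4
    rw [hdens] at h3
    exact absurd h3 (not_lt.2 (hmin Y j1 j2 h1 h2 h4))
  · have h0 : ℵ₀ ≤ dens (X ⧸ N) := aleph0_lt_lift_nonMeagre.le.trans hbig
    refine lt_of_le_of_ne ?_ ?_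
    · exact Ordinal.aleph0_le_cof.2 (isSuccLimit_ord h0)
    · intro heq
      exact hno (countableCofinalityCase 𝕜 _ hNinf heq.symm)
  · intro M hM hMinf
    refine le_antisymm (dens_quotient_le M) ?_
    rw [hdens]
    exact hmin _ _ _ inferInstance hMinf fun hq =>
      hno (Vale.Agent.P129.HasSepQuot.of_quotient M hq)
  · intro f hf c hc
    by_contra hcon
    push Not at hcon
    exact hno (Vale.Agent.P129.exists_separable_quotient_of_l1 f hf c hc hcon)

end Vale.Agent.P129.H189
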