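import Vale.Agent.P129.H189.Barr
import Vale.Agent.P129.H189.Small

/-! Supports of functionals on barrelled normed spaces. -/

open Set Cardinal TopologicalSpace

namespace Vale.Agent.P129.H189

universe u

theorem barrelled_quotient {𝕜 : Type} [RCLike 𝕜] {E : Type u} [NormedAddCommGroup E]
    [NormedSpace 𝕜 E] (hb : BarrelledSpace 𝕜 E) (N : Submodule 𝕜 E) :
    BarrelledSpace 𝕜 (E ⧸ N) := by
  refine ⟨fun p hp => ?_⟩
  have hq : Topology.IsQuotientMap (N.mkQ : E → E ⧸ N) := isQuotientMap_quotient_mk'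
  have h1 : LowerSemicontinuous (p.comp N.mkQ) := hp.comp N.continuous_mkQ
  exact hq.continuous_iff.2 ((p.comp N.mkQ).continuous_of_lowerSemicontinuous h1)

theorem barrelledSupports : BarrelledSupports.{u} := by
  intro 𝕜 _ E _ _ hb V hV H hH
  by_contra hcon
  push Not at hcon
  obtain ⟨h, hli, hhV⟩ := exists_seq_of_infinite V hV
  obtain ⟨N, hN, hNinf, hNmem, -⟩ := exists_total_quotient h hli
  let D : Set (E ⧸ N) := N.mkQ '' (⋃ n, {x : E | x ∈ H ∧ h n x ≠ 0})
  have hD : #D < Cardinal.lift.{u} nonMeagre :=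
    mk_image_le.trans_lt (mk_iUnion_lt_nonMeagre _ fun n => hcon _ (hhV n))
  have hι : #(D ⊕ ℕ) < Cardinal.lift.{u} nonMeagre := by
    rw [mk_sum]
    refine add_lt_of_lt aleph0_lt_lift_nonMeagre.le ?_ ?_
    · simpa using hD
    · simpa using aleph0_lt_lift_nonMeagre.{u}
  obtain ⟨g, hg1, hg2⟩ := Vale.Agent.P129.exists_unbounded_bounded_at hNinf
    (ι := D ⊕ ℕ) (isMeagre_range_of_lt hι) (Sum.elim (↑) fun _ => 0)
  refine not_barrelled_of_unbounded g hg1 (fun z => ?_) (barrelled_quotient hb N)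
  have h1 : (⊤ : Submodule 𝕜 E) ≤ (Vale.Agent.P129.bddSub g).comap N.mkQ := by
    rw [← hH, Submodule.span_le]
    intro x hx
    show N.mkQ x ∈ Vale.Agent.P129.bddSub g
    by_cases hx0 : ∀ n, h n x = 0
    · have : N.mkQ x = 0 := (Submodule.Quotient.mk_eq_zero N).2 ((hNmem x).2 hx0)
      rw [this]
      exact Submodule.zero_mem _
    · push Not at hx0
      obtain ⟨n, hn⟩ := hx0
      exact hg2 (Sum.inl ⟨N.mkQ x, x, mem_iUnion.2 ⟨n, hx, hn⟩, rfl⟩)
  obtain ⟨x, rfl⟩ := N.mkQ_surjective z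
  exact h1 Submodule.mem_top

end Vale.Agent.P129.H189
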