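import Vale.Agent.P129.H189.Low

/-! Dense barrelled subspaces of small dimension in arbitrary Banach spaces. -/

open Set Cardinal TopologicalSpace Filter Topology

namespace Vale.Agent.P129.H189

universe u

variable {𝕜 : Type} [RCLike 𝕜]

theorem exists_barrelled_set (Y : Type u) [NormedAddCommGroup Y] [NormedSpace 𝕜 Y]
    [CompleteSpace Y] [SeparableSpace Y] :
    ∃ T : Set Y, #T ≤ Cardinal.lift.{u} nonMeagre ∧ Dense (Submodule.span 𝕜 T : Set Y) ∧
      BarrelledSpace 𝕜 (Submodule.span 𝕜 T) := by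
  obtain ⟨T, hT, hTc⟩ := nonMeagre_mem
  let _ : NormedSpace ℝ Y := NormedSpace.restrictScalars ℝ 𝕜 Y
  obtain ⟨e, he⟩ := Vale.Agent.P129.exists_digit_map Y
  obtain ⟨h1, h2⟩ := Vale.Agent.P129.barrelled_span_of_digit_map (𝕜 := 𝕜) e he T hT
  refine ⟨e '' T, ?_, h1, h2⟩
  have h3 := mk_image_le_lift (f := e) (s := T)
  rw [hTc] at h3
  simpa using h3

variable {X : Type u} [NormedAddCommGroup X] [NormedSpace 𝕜 X]

/-- A lower semicontinuous seminorm is bounded on the closure of a barrelled subspace. -/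
lemma bound_on (E : Submodule 𝕜 X) (p : Seminorm 𝕜 E) (hp : LowerSemicontinuous p)
    (Y : Submodule 𝕜 X) (F : Submodule 𝕜 Y) (hF : Dense (F : Set Y)) (hb : BarrelledSpace 𝕜 F)
    (hFE : ∀ y ∈ F, (y : X) ∈ E) : ∃ C : ℝ, ∀ x : E, (x : X) ∈ Y → p x ≤ C * ‖x‖ := by
  let L : F →L[𝕜] E := (Y.subtypeL.comp F.subtypeL).codRestrict E (fun y => hFE y y.2)
  have hL : ∀ y : F, ((L y : E) : X) = ((y : Y) : X) := fun y => rfl
  have hLn : ∀ y : F, ‖L y‖ = ‖y‖ := fun y => rfl
  let q : Seminorm 𝕜 F := p.comp L.toLinearMap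
  have hq : LowerSemicontinuous q := hp.comp L.continuous
  have hqc : Continuous q := q.continuous_of_lowerSemicontinuous hq
  obtain ⟨C, hC, hC'⟩ := Seminorm.bound_of_continuous_normedSpace q hqc
  have hcl : IsClosed {x : E | p x ≤ C * ‖x‖} := by
    have h1 : LowerSemicontinuous fun x : E => p x + (-(C * ‖x‖)) :=
      hp.add (Continuous.lowerSemicontinuous (by fun_prop))
    have h2 : {x : E | p x ≤ C * ‖x‖} = (fun x : E => p x + (-(C * ‖x‖))) ⁻¹' Iic 0 := by
      ext x
      simp only [mem_ofPred_eq, mem_preimage, mem_Iic]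
      constructor <;> intro h <;> linarith
    rw [h2]
    exact h1.isClosed_preimage 0
  refine ⟨C, fun x hx => ?_⟩
  have hmem : x ∈ closure (Set.range L) := by
    rw [Topology.IsInducing.subtypeVal.closure_eq_preimage_closure_image]
    have h1 : (⟨x, hx⟩ : Y) ∈ closure (F : Set Y) := hF _
    refine map_mem_closure (f := fun y : Y => (y : X)) continuous_subtype_val h1 ?_
    intro y hy
    exact ⟨L ⟨y, hy⟩, ⟨_, rfl⟩, rfl⟩
  have hsub : Set.range L ⊆ {x : E | p x ≤ C * ‖x‖} := by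
    rintro _ ⟨y, rfl⟩
    exact hC' y
  exact closure_minimal hsub hcl hmem

theorem exists_dense_barrelled_of_cover [CompleteSpace X] {ι : Type u} (d : ι → X)
    (hd : DenseRange d) (𝒮 : Set (Set ι)) (hc : ∀ A ∈ 𝒮, A.Countable)
    (hcof : ∀ B : Set ι, B.Countable → ∃ A ∈ 𝒮, B ⊆ A) :
    ∃ E : Submodule 𝕜 X, Dense (E : Set X) ∧ BarrelledSpace 𝕜 E ∧
      Module.rank 𝕜 E ≤ max #𝒮 (Cardinal.lift.{u} nonMeagre) := by
  let Y : 𝒮 → Submodule 𝕜 X := fun A => (Submodule.span 𝕜 (d '' A)).topologicalClosure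
  have hYs : ∀ A, SeparableSpace (Y A) := by
    intro A
    have h1 : IsSeparable (d '' (A : Set ι)) := ((hc A A.2).image d).isSeparable
    have h2 : IsSeparable (Submodule.span 𝕜 (d '' (A : Set ι)) : Set X) := h1.span
    exact h2.closure.separableSpace
  have hYc : ∀ A, CompleteSpace (Y A) := fun A =>
    (Submodule.isClosed_topologicalClosure _).completeSpace_coe
  have hex : ∀ A : 𝒮, ∃ T : Set (Y A), #T ≤ Cardinal.lift.{u} nonMeagre ∧
      Dense (Submodule.span 𝕜 T : Set (Y A)) ∧ BarrelledSpace 𝕜 (Submodule.span 𝕜 T) := by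
    intro A
    have := hYs A
    have := hYc A
    exact exists_barrelled_set (Y A)
  choose T hT1 hT2 hT3 using hex
  let G : Set X := ⋃ A : 𝒮, (Subtype.val '' T A)
  let E : Submodule 𝕜 X := Submodule.span 𝕜 G
  have hFE : ∀ A, ∀ y ∈ Submodule.span 𝕜 (T A), (y : X) ∈ E := by
    intro A y hy
    have h1 : Submodule.span 𝕜 (T A) ≤ E.comap (Y A).subtype := by
      refine Submodule.span_le.2 fun z hz => ?_
      exact Submodule.subset_span (mem_iUnion.2 ⟨A, z, hz, rfl⟩)
    exact h1 hy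
  have hYE : ∀ A, (Y A : Set X) ⊆ closure (E : Set X) := by
    intro A x hx
    have h1 : (⟨x, hx⟩ : Y A) ∈ closure (Submodule.span 𝕜 (T A) : Set (Y A)) := hT2 A _
    exact map_mem_closure (f := fun y : Y A => (y : X)) continuous_subtype_val h1
      (fun y hy => hFE A y hy)
  have hdY : ∀ (A : 𝒮) (i : ι), i ∈ (A : Set ι) → d i ∈ Y A := fun A i hi =>
    Submodule.le_topologicalClosure _ (Submodule.subset_span ⟨i, hi, rfl⟩)
  refine ⟨E, ?_, ⟨fun p hp => ?_⟩, ?_⟩
  · -- density
    have h1 : Set.range d ⊆ closure (E : Set X) := by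
      rintro _ ⟨i, rfl⟩
      obtain ⟨A, hA, hiA⟩ := hcof {i} (Set.countable_singleton i)
      exact hYE ⟨A, hA⟩ (hdY ⟨A, hA⟩ i (hiA rfl))
    intro x
    exact closure_minimal h1 isClosed_closure (hd x)
  · -- barrelledness
    have hbd : ∃ n : ℕ, ∀ x, p x ≤ n * ‖x‖ := by
      by_contra hcon
      push Not at hcon
      choose x hx using hcon
      -- a countable set of indices approximating the sequence
      have hB : ∃ B : Set ι, B.Countable ∧ ∀ n, (x n : X) ∈ closure (d '' B) := by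
        have h1 : ∀ n, ∃ i : ℕ → ι, Tendsto (fun k => d (i k)) atTop (𝓝 (x n : X)) := by
          intro n
          obtain ⟨y, hy1, hy2⟩ := mem_closure_iff_seq_limit.1 (hd (x n : X))
          choose i hi using hy1
          refine ⟨i, ?_⟩
          simpa only [hi] using hy2
        choose i hi using h1
        refine ⟨⋃ n, Set.range (i n), Set.countable_iUnion fun n => Set.countable_range _,
          fun n => ?_⟩
        refine mem_closure_of_tendsto (hi n) (Eventually.of_forall fun k => ?_)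
        exact ⟨i n k, mem_iUnion.2 ⟨n, k, rfl⟩, rfl⟩
      obtain ⟨B, hB1, hB2⟩ := hB
      obtain ⟨A, hA, hBA⟩ := hcof B hB1
      obtain ⟨C, hC⟩ := bound_on E p hp (Y ⟨A, hA⟩) _ (hT2 ⟨A, hA⟩) (hT3 ⟨A, hA⟩)
        (hFE ⟨A, hA⟩)
      obtain ⟨n, hn⟩ := exists_nat_ge C
      have hxY : (x n : X) ∈ Y ⟨A, hA⟩ := by
        have h1 : closure (d '' B) ⊆ (Y ⟨A, hA⟩ : Set X) := by
          refine closure_minimal ?_ (Submodule.isClosed_topologicalClosure _)
          rintro _ ⟨i, hi, rfl⟩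
          exact hdY ⟨A, hA⟩ i (hBA hi)
        exact h1 (hB2 n)
      have h2 := hC (x n) hxY
      have h3 := hx n
      have h4 : C * ‖x n‖ ≤ n * ‖x n‖ := mul_le_mul_of_nonneg_right hn (norm_nonneg _)
      linarith
    obtain ⟨n, hn⟩ := hbd
    have hle : p ≤ (n : NNReal) • normSeminorm 𝕜 E := fun x => by
      simpa [NNReal.smul_def] using hn x
    refine Seminorm.continuous_of_le ?_ hle
    show Continuous fun x : E => (n : NNReal) • ‖x‖
    fun_prop
  · -- dimension
    refine (rank_span_le G).trans ?_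
    refine mk_iUnion_le_of_le _ (aleph0_lt_lift_nonMeagre.le.trans (le_max_right _ _))
      (le_max_left _ _) fun A => ?_
    exact mk_image_le.trans ((hT1 A).trans (le_max_right _ _))

theorem exists_dense_barrelled [CompleteSpace X] :
    ∃ E : Submodule 𝕜 X, Dense (E : Set X) ∧ BarrelledSpace 𝕜 E ∧
      Module.rank 𝕜 E ≤ max (countableCof (dens X)) (Cardinal.lift.{u} nonMeagre) := by
  obtain ⟨D, hD1, hD2⟩ := exists_dense_mk_eq X
  obtain ⟨𝒮, h1, h2, h3⟩ := exists_countableCof (dens X)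
  obtain ⟨e⟩ : Nonempty ((dens X).out ≃ D) := by
    rw [← Cardinal.eq, mk_out, hD2]
  have hd : DenseRange fun i => (e i : X) := by
    have h4 : Set.range (fun i => (e i : X)) = D := by
      have h5 : (fun i => (e i : X)) = Subtype.val ∘ e := rfl
      rw [h5, EquivLike.range_comp, Subtype.range_coe]
    rw [DenseRange, h4]
    exact hD1
  rw [← h3]
  exact exists_dense_barrelled_of_cover _ hd 𝒮 h1 h2

theorem denseBarrelledDimensions : DenseBarrelledDimensions.{u} := by
  intro 𝕜 _ X _ _ _ hinf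
  refine ⟨fun E hE hb => dense_lower hinf E hE hb, exists_dense_barrelled, fun n hn => ?_⟩
  obtain ⟨E, h1, h2, h3⟩ := exists_dense_barrelled (𝕜 := 𝕜) (X := X)
  refine ⟨E, h1, h2, le_antisymm ?_ (dense_lower hinf E h1 h2).1⟩
  refine h3.trans (max_le ?_ (le_max_right _ _))
  refine (countableCof_le _ n hn).trans (max_le (le_max_left _ _) ?_)
  exact aleph0_lt_lift_nonMeagre.le.trans (le_max_right _ _)

end Vale.Agent.P129.H189
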