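import Vale.Agent.P129.H189.Defs

/-! Cardinal arithmetic for P129: small unions, cofinality, covering families. -/

open Set Cardinal

namespace Vale.Agent.P129.H189

universe u

lemma mk_iUnion_le_of_le {α ι : Type u} (A : ι → Set α) {κ : Cardinal.{u}} (h0 : ℵ₀ ≤ κ)
    (hι : #ι ≤ κ) (h : ∀ i, #(A i) ≤ κ) : #(⋃ i, A i) ≤ κ := by
  refine (mk_iUnion_le _).trans ?_
  exact (mul_le_mul' hι (ciSup_le' h)).trans (mul_eq_self h0).le

lemma mk_iUnion_nat_le {α : Type u} (A : ℕ → Set α) {κ : Cardinal.{u}} (h0 : ℵ₀ ≤ κ)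
    (h : ∀ n, #(A n) ≤ κ) : #(⋃ n, A n) ≤ κ := by
  have e : (⋃ n, A n) = ⋃ n : ULift.{u} ℕ, A n.down := by
    ext x
    simp
  rw [e]
  exact mk_iUnion_le_of_le _ h0 (by simpa using h0) fun n => h _

/-- The rank function of a set in its initial well order. -/
lemma exists_rank (α : Type u) : ∃ r : α → Ordinal.{u}, Function.Injective r ∧
    (∀ a, r a < (#α).ord) ∧ ∀ o < (#α).ord, ∃ a, r a = o := by
  have h1 : #α = #((#α).ord.ToType) := by rw [mk_ord_toType]
  obtain ⟨e⟩ := Cardinal.eq.1 h1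
  refine ⟨fun a => (Ordinal.ToType.mk.symm (e a) : Iio (#α).ord).1, ?_, ?_, ?_⟩
  · intro a b hab
    have := Subtype.ext hab
    exact e.injective (Ordinal.ToType.mk.symm.injective this)
  · intro a
    exact (Ordinal.ToType.mk.symm (e a) : Iio (#α).ord).2
  · intro o ho
    refine ⟨e.symm (Ordinal.ToType.mk ⟨o, ho⟩), ?_⟩
    simp

/-- An initial segment has few elements. -/
lemma mk_rank_lt {α : Type u} (r : α → Ordinal.{u}) (hr : Function.Injective r) (o : Ordinal.{u}) :
    #{a | r a < o} ≤ o.card := by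
  have : #{a | r a < o} ≤ #(o.ToType) := by
    refine mk_le_of_injective (f := fun a : {a | r a < o} => Ordinal.ToType.mk ⟨r a.1, a.2⟩) ?_
    intro a b hab
    have h1 := Ordinal.ToType.mk.injective hab
    have h2 : r a.1 = r b.1 := congrArg Subtype.val h1
    exact Subtype.ext (hr h2)
  rwa [mk_toType] at this

/-- A set whose cardinality has countable cofinality is the union of an increasing sequence of
smaller sets. -/
lemma exists_increasing_small (D : Type u) (h0 : ℵ₀ ≤ #D) (hcof : (#D).ord.cof = ℵ₀) :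
    ∃ A : ℕ → Set D, Monotone A ∧ (⋃ n, A n) = Set.univ ∧ ∀ n, #(A n) < #D := by
  obtain ⟨r, hr1, hr2, hr3⟩ := exists_rank D
  obtain ⟨ι, f, hf, hι⟩ := Ordinal.exists_lsub_cof (#D).ord
  rw [hcof] at hι
  obtain ⟨e⟩ : Nonempty (ℕ ≃ ι) := by
    have : Cardinal.lift.{u} #ℕ = Cardinal.lift.{0} #ι := by simp [hι]
    exact Cardinal.lift_mk_eq'.1 this
  have hlt : ∀ n, f (e n) < (#D).ord := fun n => by
    rw [← hf]
    exact Ordinal.lt_lsub f _
  have hlim : Order.IsSuccLimit (#D).ord := isSuccLimit_ord h0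
  have hsmall : ∀ o < (#D).ord, #{a | r a < o + 1} < #D := by
    intro o ho
    refine (mk_rank_lt r hr1 (o + 1)).trans_lt ?_
    exact lt_ord.1 (by simpa using hlim.add_one_lt ho)
  refine ⟨fun n => ⋃ k ∈ Finset.range (n + 1), {a | r a < f (e k) + 1}, ?_, ?_, ?_⟩
  · intro m n hmn
    refine Set.biUnion_subset_biUnion_left ?_
    intro k hk
    simp only [Finset.mem_coe, Finset.mem_range] at hk ⊢
    omega
  · rw [eq_univ_iff_forall]
    intro a
    obtain ⟨i, hi⟩ : ∃ i, r a ≤ f i := by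
      by_contra hcon
      push Not at hcon
      have h1 : Ordinal.lsub f ≤ r a := Ordinal.lsub_le hcon
      rw [hf] at h1
      exact absurd (hr2 a) (not_lt.2 h1)
    refine mem_iUnion.2 ⟨e.symm i, ?_⟩
    simp only [mem_iUnion]
    refine ⟨e.symm i, by simp, ?_⟩
    show r a < f (e (e.symm i)) + 1
    rw [e.apply_symm_apply]
    exact Order.lt_add_one_iff.2 hi
  · intro n
    induction n with
    | zero =>
      simpa using hsmall _ (hlt 0)
    | succ n ih =>
      have e1 : (⋃ k ∈ Finset.range (n + 1 + 1), {a | r a < f (e k) + 1}) =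
          (⋃ k ∈ Finset.range (n + 1), {a | r a < f (e k) + 1}) ∪
            {a | r a < f (e (n + 1)) + 1} := by
        rw [Finset.range_add_one (n := n + 1), Finset.set_biUnion_insert, union_comm]
      show #(⋃ k ∈ Finset.range (n + 1 + 1), {a | r a < f (e k) + 1} : Set D) < #D
      rw [e1]
      refine (mk_union_le _ _).trans_lt (add_lt_of_lt h0 ih (hsmall _ (hlt _)))

/-- Small covering families for the countable subsets of a set with fewer than `ℵ_ω` elements. -/
lemma exists_cover (n : ℕ) : ∀ (α : Type u), #α ≤ ℵ_ (n : Ordinal.{u}) →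
    ∃ 𝒮 : Set (Set α), (∀ A ∈ 𝒮, A.Countable) ∧
      (∀ B : Set α, B.Countable → ∃ A ∈ 𝒮, B ⊆ A) ∧ #𝒮 ≤ max #α ℵ₀ := by
  induction n with
  | zero =>
    intro α hα
    have hc : #α ≤ ℵ₀ := by simpa using hα
    have : Countable α := mk_le_aleph0_iff.1 hc
    refine ⟨{Set.univ}, ?_, ?_, ?_⟩
    · rintro A rfl
      exact Set.countable_univ
    · intro B _
      exact ⟨Set.univ, rfl, subset_univ _⟩
    · rw [mk_singleton]
      exact (one_lt_aleph0.le).trans (le_max_right _ _)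
  | succ n ih =>
    intro α hα
    by_cases hsm : #α ≤ ℵ_ (n : Ordinal.{u})
    · exact ih α hsm
    rw [not_le] at hsm
    have hsucc : ℵ_ ((n + 1 : ℕ) : Ordinal.{u}) = Order.succ (ℵ_ (n : Ordinal.{u})) := by
      rw [← aleph_add_one]
      push_cast
      rfl
    have hα' : #α = ℵ_ ((n + 1 : ℕ) : Ordinal.{u}) := by
      refine le_antisymm hα ?_
      rw [hsucc]
      exact Order.succ_le_of_lt hsm
    have hreg : (#α).IsRegular := by
      rw [hα', hsucc]
      exact isRegular_succ (aleph0_le_aleph _)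
    have h0 : ℵ₀ ≤ #α := hreg.aleph0_le
    obtain ⟨r, hr1, hr2, hr3⟩ := exists_rank α
    have hJ : ∀ a : α, #{b | r b < r a + 1} ≤ ℵ_ (n : Ordinal.{u}) := by
      intro a
      refine (mk_rank_lt r hr1 _).trans ?_
      have h1 : (r a + 1).card < #α :=
        lt_ord.1 (by simpa using (isSuccLimit_ord h0).add_one_lt (hr2 a))
      rw [hα', hsucc] at h1
      exact Order.lt_succ_iff.1 h1
    choose 𝒮 hS1 hS2 hS3 using fun a : α => ih {b | r b < r a + 1} (hJ a)
    refine ⟨⋃ a, (fun A : Set {b | r b < r a + 1} => ((↑) '' A : Set α)) '' 𝒮 a, ?_, ?_, ?_⟩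
    · intro A hA
      obtain ⟨a, A', hA', rfl⟩ := mem_iUnion.1 hA
      exact (hS1 a A' hA').image _
    · intro B hB
      have hcB : #B < #α := by
        refine (mk_le_aleph0_iff.2 hB.to_subtype).trans_lt ?_
        exact (aleph0_le_aleph _).trans_lt hsm
      have h1 : (⨆ b : B, r b.1) < (#α).ord :=
        Ordinal.iSup_lt_of_lt_cof (by rwa [hreg.cof_ord]) fun b => hr2 _
      obtain ⟨a, ha⟩ := hr3 _ h1
      have hle : ∀ b : B, r b.1 ≤ r a := by
        intro b
        rw [ha]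
        exact Ordinal.le_iSup (fun b : B => r b.1) b
      obtain ⟨A, hA1, hA2⟩ := hS2 a ((↑) ⁻¹' B) (hB.preimage Subtype.val_injective)
      refine ⟨(↑) '' A, mem_iUnion.2 ⟨a, A, hA1, rfl⟩, ?_⟩
      intro b hb
      have hb' : r b < r a + 1 := Order.lt_add_one_iff.2 (hle ⟨b, hb⟩)
      exact ⟨⟨b, hb'⟩, hA2 hb, rfl⟩
    · have hmax : max #α ℵ₀ = #α := max_eq_left h0
      rw [hmax]
      refine mk_iUnion_le_of_le _ h0 le_rfl fun a => ?_
      refine mk_image_le.trans ((hS3 a).trans (max_le ?_ h0))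
      exact (hJ a).trans hsm.le

lemma exists_countableCof (κ : Cardinal.{u}) : ∃ 𝒮 : Set (Set κ.out), (∀ A ∈ 𝒮, A.Countable) ∧
    (∀ B : Set κ.out, B.Countable → ∃ A ∈ 𝒮, B ⊆ A) ∧ #𝒮 = countableCof κ := by
  have : countableCof κ ∈ {μ : Cardinal.{u} | ∃ 𝒮 : Set (Set κ.out), (∀ A ∈ 𝒮, A.Countable) ∧
      (∀ B : Set κ.out, B.Countable → ∃ A ∈ 𝒮, B ⊆ A) ∧ #𝒮 = μ} := by
    refine csInf_mem ⟨_, {A | A.Countable}, fun A hA => hA, fun B hB => ⟨B, hB, subset_rfl⟩, rfl⟩
  exact this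

lemma countableCof_le (κ : Cardinal.{u}) (n : ℕ) (h : κ ≤ ℵ_ (n : Ordinal.{u})) :
    countableCof κ ≤ max κ ℵ₀ := by
  obtain ⟨𝒮, h1, h2, h3⟩ := exists_cover n κ.out (by rwa [mk_out])
  rw [mk_out] at h3
  have h4 : countableCof κ ≤ #𝒮 := by
    unfold countableCof
    exact csInf_le' ⟨𝒮, h1, h2, rfl⟩
  exact h4.trans h3

end Vale.Agent.P129.H189
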