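import Vale.Agent.P129.MathlibUsed
import Mathlib.Analysis.LocallyConvex.Barrelled
import Mathlib.SetTheory.Cardinal.Continuum
import Mathlib.SetTheory.Cardinal.Regular

/-! Definitions used in the statement of `Results/P129/SupportsAndBarrels`. -/

open MeasureTheory Set

namespace Vale.Agent.P129.H189

universe u

/-- The uniformity number of the meagre ideal: the least cardinality of a nonmeagre
set of real numbers. -/
noncomputable def nonMeagre : Cardinal.{0} :=
  sInf {κ : Cardinal.{0} | ∃ S : Set ℝ, ¬ IsMeagre S ∧ Cardinal.mk S = κ}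

/-- There is a closed subspace with a separable infinite-dimensional quotient. -/
def HasSeparableQuotient (𝕜 : Type) [RCLike 𝕜] (X : Type u) [NormedAddCommGroup X]
    [NormedSpace 𝕜 X] : Prop :=
  ∃ M : Submodule 𝕜 X, IsClosed (M : Set X) ∧ TopologicalSpace.SeparableSpace (X ⧸ M) ∧
    ¬ FiniteDimensional 𝕜 (X ⧸ M)

/-- Every infinite-dimensional barrelled normed space has Hamel dimension at least non(M). -/
def BarrelledLowerBound : Prop :=
  ∀ (𝕜 : Type) [RCLike 𝕜] (E : Type u) [NormedAddCommGroup E] [NormedSpace 𝕜 E],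
    ¬ FiniteDimensional 𝕜 E → BarrelledSpace 𝕜 E →
      Cardinal.lift.{u} nonMeagre ≤ Module.rank 𝕜 E

/-- Every infinite-dimensional separable Banach space has a dense barrelled subspace of Hamel
dimension exactly non(M). -/
def BarrelledAttained : Prop :=
  ∀ (𝕜 : Type) [RCLike 𝕜] (X : Type) [NormedAddCommGroup X] [NormedSpace 𝕜 X]
    [CompleteSpace X] [TopologicalSpace.SeparableSpace X], ¬ FiniteDimensional 𝕜 X →
      ∃ E : Submodule 𝕜 X, Dense (E : Set X) ∧ BarrelledSpace 𝕜 E ∧
        Module.rank 𝕜 E = nonMeagre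

/-- Banach spaces generated by fewer than non(M) weakly compact sets have separable
infinite-dimensional quotients. -/
def GeneratedCase : Prop :=
  ∀ (𝕜 : Type) [RCLike 𝕜] (X : Type u) [NormedAddCommGroup X] [NormedSpace 𝕜 X]
    [CompleteSpace X] (𝒦 : Set (Set X)), (∀ K ∈ 𝒦, IsCompact (toWeakSpace 𝕜 X '' K)) →
      Dense (Submodule.span 𝕜 (⋃₀ 𝒦) : Set X) → Cardinal.mk 𝒦 < Cardinal.lift.{u} nonMeagre →
        ¬ FiniteDimensional 𝕜 X → HasSeparableQuotient 𝕜 X

/-- Every infinite-dimensional Banach space has a separable infinite-dimensional quotient. -/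
def FullAnswer : Prop :=
  ∀ (𝕜 : Type) [RCLike 𝕜] (X : Type u) [NormedAddCommGroup X] [NormedSpace 𝕜 X]
    [CompleteSpace X], ¬ FiniteDimensional 𝕜 X → HasSeparableQuotient 𝕜 X

/-- Every map assigning to each finite set of reals a Lebesgue null set has an infinite free
set. -/
def InfiniteFreeSets : Prop :=
  ∀ F : Finset ℝ → Set ℝ, (∀ s, volume (F s) = 0) →
    ∃ A : Set ℝ, A.Infinite ∧ ∀ s : Finset ℝ, (s : Set ℝ) ⊆ A → ∀ a ∈ A, a ∉ s → a ∉ F s

/-- Lebesgue measure on the real line extends to a countably additive measure which is defined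
on all subsets of the real line. -/
def LebesgueExtends : Prop :=
  ∃ ν : @Measure ℝ ⊤, ∀ s : Set ℝ, MeasurableSet s → ν s = volume s

/-- There is a set `A` of reals which meets every null set in a countable set only (a Sierpiński
set) such that every map assigning to each finite set of reals a countable set has an infinite
free set contained in `A`. -/
def SierpinskiFreeSets : Prop :=
  ∃ A : Set ℝ, (∀ N : Set ℝ, volume N = 0 → (A ∩ N).Countable) ∧
    ∀ C : Finset ℝ → Set ℝ, (∀ s, (C s).Countable) →
      ∃ B ⊆ A, B.Infinite ∧ ∀ s : Finset ℝ, (s : Set ℝ) ⊆ B → ∀ b ∈ B, b ∉ s → b ∉ C s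

/-- The density of a topological space: the least cardinality of a dense subset. -/
noncomputable def dens (X : Type u) [TopologicalSpace X] : Cardinal.{u} :=
  sInf {κ : Cardinal.{u} | ∃ S : Set X, Dense S ∧ Cardinal.mk S = κ}

/-- The least cardinality of a family of countable subsets of a set of cardinality `κ` such that
every countable subset of this set is contained in a member of the family. -/
noncomputable def countableCof (κ : Cardinal.{u}) : Cardinal.{u} :=
  sInf {μ : Cardinal.{u} | ∃ 𝒮 : Set (Set κ.out), (∀ A ∈ 𝒮, A.Countable) ∧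
    (∀ B : Set κ.out, B.Countable → ∃ A ∈ 𝒮, B ⊆ A) ∧ Cardinal.mk 𝒮 = μ}

/-- A set is `κ`-determined in the weak topology if it is covered by the values of an upper
semicontinuous map `F` with weakly compact values which is defined on a topological space with a
base of fewer than `κ` open sets. -/
def WeaklyDetermined (𝕜 : Type) [RCLike 𝕜] (κ : Cardinal.{u}) {X : Type u}
    [NormedAddCommGroup X] [NormedSpace 𝕜 X] (K : Set X) : Prop :=
  ∃ (S : Type u) (_ : TopologicalSpace S) (ℬ : Set (Set S)) (F : S → Set (WeakSpace 𝕜 X)),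
    TopologicalSpace.IsTopologicalBasis ℬ ∧ Cardinal.mk ℬ < κ ∧ (∀ s, IsCompact (F s)) ∧
      (∀ (s : S) (U : Set (WeakSpace 𝕜 X)), IsOpen U → F s ⊆ U → ∀ᶠ t in nhds s, F t ⊆ U) ∧
        toWeakSpace 𝕜 X '' K ⊆ ⋃ s, F s

/-- For a Banach space `X` the following are equivalent: (a) `X` has a separable
infinite-dimensional quotient; (b) there are an infinite-dimensional space `V` of bounded
functionals and a set `H` spanning a dense subspace such that every functional in `V` is nonzero
at only countably many points of `H`; (c) there are an infinite-dimensional space `V` of bounded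
functionals and sets `K` and `H` whose union spans a dense subspace such that `K` is
non(M)-determined in the weak topology and every functional in `V` is nonzero at fewer than
non(M) points of `H`. -/
def SupportCriterion : Prop :=
  ∀ (𝕜 : Type) [RCLike 𝕜] (X : Type u) [NormedAddCommGroup X] [NormedSpace 𝕜 X]
    [CompleteSpace X],
      (HasSeparableQuotient 𝕜 X ↔
        ∃ (V : Submodule 𝕜 (StrongDual 𝕜 X)) (H : Set X),
          ¬ FiniteDimensional 𝕜 V ∧ Dense (Submodule.span 𝕜 H : Set X) ∧
            ∀ f ∈ V, {x : X | x ∈ H ∧ f x ≠ 0}.Countable) ∧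
      (HasSeparableQuotient 𝕜 X ↔
        ∃ (V : Submodule 𝕜 (StrongDual 𝕜 X)) (K H : Set X),
          ¬ FiniteDimensional 𝕜 V ∧ Dense (Submodule.span 𝕜 (K ∪ H) : Set X) ∧
            WeaklyDetermined 𝕜 (Cardinal.lift.{u} nonMeagre) K ∧
              ∀ f ∈ V, Cardinal.mk {x : X | x ∈ H ∧ f x ≠ 0} < Cardinal.lift.{u} nonMeagre)

/-- Every infinite-dimensional space `V` of bounded functionals on a barrelled normed space
contains a functional which is nonzero at no fewer than non(M) points of a given set `H` spanning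
the space. -/
def BarrelledSupports : Prop :=
  ∀ (𝕜 : Type) [RCLike 𝕜] (E : Type u) [NormedAddCommGroup E] [NormedSpace 𝕜 E],
    BarrelledSpace 𝕜 E → ∀ V : Submodule 𝕜 (StrongDual 𝕜 E), ¬ FiniteDimensional 𝕜 V →
      ∀ H : Set E, Submodule.span 𝕜 H = ⊤ →
        ∃ f ∈ V, Cardinal.lift.{u} nonMeagre ≤ Cardinal.mk {x : E | x ∈ H ∧ f x ≠ 0}

/-- The dimensions of the dense barrelled subspaces of an arbitrary infinite-dimensional Banach
space `X`: all are at least `dens X` and non(M), and larger than `dens X` if `dens X` has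
countable cofinality; one is at most `countableCof (dens X)` or non(M); if the density of `X` is
less than the `ω`-th aleph, the least one is exactly the maximum of `dens X` and non(M). -/
def DenseBarrelledDimensions : Prop :=
  ∀ (𝕜 : Type) [RCLike 𝕜] (X : Type u) [NormedAddCommGroup X] [NormedSpace 𝕜 X]
    [CompleteSpace X], ¬ FiniteDimensional 𝕜 X →
      (∀ E : Submodule 𝕜 X, Dense (E : Set X) → BarrelledSpace 𝕜 E →
        max (dens X) (Cardinal.lift.{u} nonMeagre) ≤ Module.rank 𝕜 E ∧
          ((dens X).ord.cof = Cardinal.aleph0 → dens X < Module.rank 𝕜 E)) ∧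
      (∃ E : Submodule 𝕜 X, Dense (E : Set X) ∧ BarrelledSpace 𝕜 E ∧
        Module.rank 𝕜 E ≤ max (countableCof (dens X)) (Cardinal.lift.{u} nonMeagre)) ∧
      ∀ n : ℕ, dens X ≤ Cardinal.aleph (n : Ordinal.{u}) →
        ∃ E : Submodule 𝕜 X, Dense (E : Set X) ∧ BarrelledSpace 𝕜 E ∧
          Module.rank 𝕜 E = max (dens X) (Cardinal.lift.{u} nonMeagre)

/-- Banach spaces whose density has countable cofinality have separable infinite-dimensional
quotients. -/
def CountableCofinalityCase : Prop :=
  ∀ (𝕜 : Type) [RCLike 𝕜] (X : Type u) [NormedAddCommGroup X] [NormedSpace 𝕜 X]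
    [CompleteSpace X], ¬ FiniteDimensional 𝕜 X → (dens X).ord.cof = Cardinal.aleph0 →
      HasSeparableQuotient 𝕜 X

/-- If some infinite-dimensional Banach space has no separable infinite-dimensional quotient,
then there is such a space `Z` which has the least possible density and the cardinality of the
continuum, has a countable total set of bounded functionals, has density at least non(M) and of
uncountable cofinality, has the same density as each of its infinite-dimensional quotients, has no
sequence equivalent to the unit vectors of `ℓ¹` in its dual, and has norm-one functionals `φ t`,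
`t` real, such that every vector is annihilated by almost all of them. -/
def SmallCounterexample : Prop :=
  ∀ (𝕜 : Type) [RCLike 𝕜], (∃ (X : Type u) (_ : NormedAddCommGroup X) (_ : NormedSpace 𝕜 X),
      CompleteSpace X ∧ ¬ FiniteDimensional 𝕜 X ∧ ¬ HasSeparableQuotient 𝕜 X) →
    ∃ (Z : Type u) (_ : NormedAddCommGroup Z) (_ : NormedSpace 𝕜 Z),
      CompleteSpace Z ∧ ¬ FiniteDimensional 𝕜 Z ∧ ¬ HasSeparableQuotient 𝕜 Z ∧
        (∀ (Y : Type u) (_ : NormedAddCommGroup Y) (_ : NormedSpace 𝕜 Y), CompleteSpace Y →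
          ¬ FiniteDimensional 𝕜 Y → dens Y < dens Z → HasSeparableQuotient 𝕜 Y) ∧
        Cardinal.mk Z = Cardinal.continuum ∧
        (∃ h : ℕ → StrongDual 𝕜 Z, ∀ z, (∀ n, h n z = 0) → z = 0) ∧
        Cardinal.lift.{u} nonMeagre ≤ dens Z ∧ Cardinal.aleph0 < (dens Z).ord.cof ∧
        (∀ M : Submodule 𝕜 Z, IsClosed (M : Set Z) → ¬ FiniteDimensional 𝕜 (Z ⧸ M) →
          dens (Z ⧸ M) = dens Z) ∧
        (∀ f : ℕ → StrongDual 𝕜 Z, (∀ i, ‖f i‖ ≤ 1) → ∀ c : ℝ, 0 < c →
          ∃ (n : ℕ) (a : ℕ → 𝕜),
            ‖∑ i ∈ Finset.range n, a i • f i‖ < c * ∑ i ∈ Finset.range n, ‖a i‖) ∧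
        ∃ φ : ℝ → StrongDual 𝕜 Z, (∀ t, ‖φ t‖ = 1) ∧ ∀ z, volume {t : ℝ | φ t z ≠ 0} = 0

end Vale.Agent.P129.H189
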