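import Vale.Agent.P129.H189.Card

/-! Density of normed spaces, subspaces and quotients. -/

open Set Cardinal TopologicalSpace
open scoped Pointwise

namespace Vale.Agent.P129.H189

universe u

lemma exists_dense_mk_eq (X : Type u) [TopologicalSpace X] :
    ∃ S : Set X, Dense S ∧ #S = dens X := by
  have : dens X ∈ {κ : Cardinal.{u} | ∃ S : Set X, Dense S ∧ #S = κ} :=
    csInf_mem ⟨_, Set.univ, dense_univ, rfl⟩
  exact this

lemma dens_le_mk {X : Type u} [TopologicalSpace X] {S : Set X} (h : Dense S) : dens X ≤ #S := by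
  unfold dens
  exact csInf_le' ⟨S, h, rfl⟩

lemma dens_le_of_dense_span {𝕜 : Type} [RCLike 𝕜] {X : Type u} [NormedAddCommGroup X]
    [NormedSpace 𝕜 X] (D : Set X) (hD : Dense (Submodule.span 𝕜 D : Set X)) :
    dens X ≤ max #D ℵ₀ := by
  obtain ⟨Q, hQ1, hQ2⟩ := exists_countable_dense 𝕜
  let T : Set X := Set.range fun l : List (Q × D) => (l.map fun p => (p.1 : 𝕜) • (p.2 : X)).sum
  have hT : #T ≤ max #D ℵ₀ := by
    refine mk_range_le.trans ((mk_list_le_max _).trans (max_le (le_max_right _ _) ?_))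
    rw [mk_prod]
    have h1 : Cardinal.lift.{u} #Q ≤ ℵ₀ := by
      simpa using (mk_le_aleph0_iff.2 hQ1.to_subtype)
    refine (mul_le_mul' (h1.trans (le_max_right #D ℵ₀)) (?_ : _ ≤ max #D ℵ₀)).trans
      (mul_eq_self (le_max_right _ _)).le
    simp
  have hsub : (Submodule.span 𝕜 D : Set X) ⊆ closure T := by
    intro x hx
    have hx' : x ∈ AddSubmonoid.closure ((Set.univ : Set 𝕜) • D) := by
      rw [← Submodule.span_eq_closure]
      exact hx
    refine AddSubmonoid.closure_induction (motive := fun y _ => y ∈ closure T) ?_ ?_ ?_ hx'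
    · rintro _ ⟨c, -, d, hd, rfl⟩
      have hc : c ∈ closure Q := hQ2 c
      have hcont : Continuous fun a : 𝕜 => a • d := by fun_prop
      refine map_mem_closure (f := fun a : 𝕜 => a • d) hcont hc ?_
      intro a ha
      exact ⟨[(⟨a, ha⟩, ⟨d, hd⟩)], by simp⟩
    · exact subset_closure ⟨[], by simp⟩
    · intro y z _ _ hy hz
      refine map_mem_closure₂ continuous_add hy hz ?_
      rintro _ ⟨l, rfl⟩ _ ⟨l', rfl⟩
      exact ⟨l ++ l', by simp⟩
  refine (dens_le_mk (S := T) ?_).trans hT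
  exact dense_iff_closure_eq.2 (eq_univ_of_univ_subset
    (hD.closure_eq.symm.subset.trans (closure_minimal hsub isClosed_closure)))

lemma dens_quotient_le {𝕜 : Type} [RCLike 𝕜] {X : Type u} [NormedAddCommGroup X]
    [NormedSpace 𝕜 X] (M : Submodule 𝕜 X) : dens (X ⧸ M) ≤ dens X := by
  obtain ⟨S, hS1, hS2⟩ := exists_dense_mk_eq X
  have h1 : Dense (M.mkQ '' S) :=
    (M.mkQ_surjective.denseRange).dense_image M.continuous_mkQ hS1
  rw [← hS2]
  exact (dens_le_mk h1).trans mk_image_le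

lemma separable_of_dens_le {X : Type u} [TopologicalSpace X] (h : dens X ≤ ℵ₀) :
    SeparableSpace X := by
  obtain ⟨S, hS1, hS2⟩ := exists_dense_mk_eq X
  rw [← hS2] at h
  exact ⟨S, mk_le_aleph0_iff.1 h, hS1⟩

lemma dens_le_of_dense_submodule {𝕜 : Type} [RCLike 𝕜] {X : Type u} [NormedAddCommGroup X]
    [NormedSpace 𝕜 X] (E : Submodule 𝕜 X) (hE : Dense (E : Set X)) : dens X ≤ dens E := by
  obtain ⟨S, hS1, hS2⟩ := exists_dense_mk_eq E
  have h1 : DenseRange ((↑) : E → X) := by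
    rw [DenseRange, Subtype.range_coe]
    exact hE
  have h2 : Dense (((↑) : E → X) '' S) := h1.dense_image continuous_subtype_val hS1
  rw [← hS2]
  exact (dens_le_mk h2).trans mk_image_le

lemma nonMeagre_mem : ∃ S : Set ℝ, ¬ IsMeagre S ∧ #S = nonMeagre := by
  have : nonMeagre ∈ {κ : Cardinal.{0} | ∃ S : Set ℝ, ¬ IsMeagre S ∧ #S = κ} := by
    refine csInf_mem ⟨_, Set.univ, ?_, rfl⟩
    exact not_isMeagre_of_isOpen isOpen_univ univ_nonempty
  exact this

theorem isMeagre_of_countable {S : Set ℝ} (hS : S.Countable) : IsMeagre S := by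
  have h : S = ⋃ x ∈ S, {x} := by simp
  rw [h]
  refine isMeagre_biUnion hS fun x _ => ?_
  have hx : IsNowhereDense ({x} : Set ℝ) := by
    show interior (closure {x}) = ∅
    rw [closure_singleton, interior_singleton]
  exact hx.isMeagre

theorem aleph0_lt_nonMeagre : ℵ₀ < nonMeagre := by
  obtain ⟨S, hS, hSc⟩ := nonMeagre_mem
  rw [← hSc]
  by_contra hle
  exact hS (isMeagre_of_countable (Cardinal.le_aleph0_iff_set_countable.1 (not_lt.1 hle)))

lemma aleph0_lt_lift_nonMeagre : ℵ₀ < Cardinal.lift.{u} nonMeagre :=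
  aleph0_lt_lift.2 aleph0_lt_nonMeagre

theorem isMeagre_range_of_lt {ι : Type u} (h : #ι < Cardinal.lift.{u} nonMeagre)
    (F : ι → ℝ) : IsMeagre (Set.range F) := by
  by_contra hF
  have h3 : nonMeagre ≤ #(Set.range F) := csInf_le' ⟨_, hF, rfl⟩
  have h4 : Cardinal.lift.{u} #(Set.range F) ≤ Cardinal.lift.{0} #ι := mk_range_le_lift
  rw [Cardinal.lift_id'] at h4
  exact absurd h (not_lt.2 ((Cardinal.lift_le.2 h3).trans h4))

/-- A countable union of sets with fewer than non(M) elements has fewer than non(M) elements. -/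
lemma mk_iUnion_lt_nonMeagre {α : Type u} (A : ℕ → Set α)
    (h : ∀ n, #(A n) < Cardinal.lift.{u} nonMeagre) :
    #(⋃ n, A n) < Cardinal.lift.{u} nonMeagre := by
  by_contra hge
  rw [not_lt] at hge
  obtain ⟨T, hT, hTc⟩ := nonMeagre_mem
  rw [← hTc] at hge
  obtain ⟨g⟩ : Nonempty (T ↪ (⋃ n, A n : Set α)) := Cardinal.lift_mk_le'.1 (by simpa using hge)
  have h1 : ∀ n, IsMeagre (Subtype.val '' {t : T | ((g t : (⋃ n, A n : Set α)) : α) ∈ A n}) := by
    intro n
    by_contra hn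
    have h2 : nonMeagre ≤ #(Subtype.val '' {t : T | ((g t : (⋃ n, A n : Set α)) : α) ∈ A n}) :=
      csInf_le' ⟨_, hn, rfl⟩
    have h3 : Cardinal.lift.{u} #(Subtype.val '' {t : T | ((g t : (⋃ n, A n : Set α)) : α) ∈ A n})
        ≤ Cardinal.lift.{0} #(A n) := by
      refine Cardinal.lift_mk_le'.2 ⟨⟨fun t => ⟨(g ⟨t.1, ?_⟩ : (⋃ n, A n : Set α)), ?_⟩, ?_⟩⟩
      · obtain ⟨t, s, -, rfl⟩ := t
        exact s.2
      · obtain ⟨t, s, hs, rfl⟩ := t
        exact hs
      · intro t s hts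
        have h4 := congrArg (fun q : A n => (q : α)) hts
        have h5 := g.injective (Subtype.ext h4)
        exact Subtype.ext (congrArg (fun q : T => (q : ℝ)) h5)
    rw [Cardinal.lift_id'] at h3
    exact absurd (h n) (not_lt.2 ((Cardinal.lift_le.2 h2).trans h3))
  refine hT ((isMeagre_iUnion h1).mono fun t ht => ?_)
  obtain ⟨n, hn⟩ := mem_iUnion.1 (g ⟨t, ht⟩).2
  exact mem_iUnion.2 ⟨n, ⟨t, ht⟩, hn, rfl⟩

lemma not_finiteDimensional_of_dense {𝕜 : Type} [RCLike 𝕜] {X : Type u} [NormedAddCommGroup X]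
    [NormedSpace 𝕜 X] (hinf : ¬ FiniteDimensional 𝕜 X) (E : Submodule 𝕜 X)
    (hE : Dense (E : Set X)) : ¬ FiniteDimensional 𝕜 E := by
  intro hfin
  have hcl : IsClosed (E : Set X) := Submodule.closed_of_finiteDimensional _
  have htop : (E : Set X) = Set.univ := by
    rw [← hcl.closure_eq, hE.closure_eq]
  have htop' : E = ⊤ := by
    rw [← SetLike.coe_set_eq, htop, Submodule.top_coe]
  rw [htop'] at hfin
  exact hinf (Module.Finite.equiv (Submodule.topEquiv : (⊤ : Submodule 𝕜 X) ≃ₗ[𝕜] X))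

end Vale.Agent.P129.H189
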