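import Vale.Agent.P129.H189.Dens
import Vale.Agent.P129.Bdl.B1

/-! Sets which are determined by few sets in the weak topology. -/

open Set Cardinal TopologicalSpace Filter Topology

namespace Vale.Agent.P129.H189

universe u

variable {𝕜 : Type} [RCLike 𝕜]

lemma WeaklyDetermined.image_mkQ {κ : Cardinal.{u}} {X : Type u} [NormedAddCommGroup X]
    [NormedSpace 𝕜 X] {K : Set X} (N : Submodule 𝕜 X) [hN : IsClosed (N : Set X)]
    (hK : WeaklyDetermined 𝕜 κ K) :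
    WeaklyDetermined 𝕜 κ (N.mkQ '' K) := by
  obtain ⟨S, iS, ℬ, F, h1, h2, h3, h4, h5⟩ := hK
  refine ⟨S, iS, ℬ, fun s => (WeakSpace.map N.mkQL) '' (F s), h1, h2,
    fun s => (h3 s).image (WeakSpace.map (N.mkQL)).continuous, ?_, ?_⟩
  · intro s U hU hs
    have h6 := h4 s _ (hU.preimage (WeakSpace.map (N.mkQL)).continuous)
      (image_subset_iff.1 hs)
    filter_upwards [h6] with t ht
    exact image_subset_iff.2 ht
  · rintro _ ⟨_, ⟨x, hx, rfl⟩, rfl⟩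
    obtain ⟨s, hs⟩ := mem_iUnion.1 (h5 ⟨x, hx, rfl⟩)
    exact mem_iUnion.2 ⟨s, _, hs, rfl⟩

/-- A weakly `κ`-determined set on which countably many functionals separate points is contained
in the closed span of fewer than `κ` vectors. -/
theorem exists_small_of_determined {κ : Cardinal.{u}} (h0 : ℵ₀ < κ) {Z : Type u}
    [NormedAddCommGroup Z] [NormedSpace 𝕜 Z] (K : Set Z) (hK : WeaklyDetermined 𝕜 κ K)
    (h : ℕ → StrongDual 𝕜 Z) (hsep : ∀ z, (∀ n, h n z = 0) → z = 0) :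
    ∃ C : Set Z, #C < κ ∧ K ⊆ closure (Submodule.span 𝕜 C : Set Z) := by
  classical
  let _ : NormedSpace ℝ Z := NormedSpace.restrictScalars ℝ 𝕜 Z
  have _ : IsScalarTower ℝ 𝕜 Z := RestrictScalars.isScalarTower ℝ 𝕜 Z
  obtain ⟨S, iS, ℬ, F, hℬ, hcard, hcomp, husc, hcov⟩ := hK
  let π : WeakSpace 𝕜 Z → (ℕ → 𝕜) := fun z n => h n ((toWeakSpace 𝕜 Z).symm z)
  have hπ : Continuous π := by
    refine continuous_pi fun n => ?_
    exact WeakBilin.eval_continuous (topDualPairing 𝕜 Z).flip (h n)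
  have hinj : Function.Injective π := by
    intro a b hab
    have h1 : (toWeakSpace 𝕜 Z).symm a - (toWeakSpace 𝕜 Z).symm b = 0 := by
      apply hsep
      intro n
      rw [map_sub, sub_eq_zero]
      exact congrFun hab n
    have h2 := sub_eq_zero.1 h1
    exact (toWeakSpace 𝕜 Z).symm.injective h2
  let 𝒱 : Set (Set (ℕ → 𝕜)) := countableBasis (ℕ → 𝕜)
  have h𝒱 : IsTopologicalBasis 𝒱 := isBasis_countableBasis _
  have h𝒱c : Countable 𝒱 := (countable_countableBasis _).to_subtype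
  -- the network
  let P : ℬ × Finset 𝒱 → Set Z := fun q =>
    {z | z ∈ K ∧ (∃ s ∈ (q.1 : Set S), toWeakSpace 𝕜 Z z ∈ F s) ∧
      ∀ V ∈ q.2, π (toWeakSpace 𝕜 Z z) ∉ (V : Set (ℕ → 𝕜))}
  have hnet : ∀ z ∈ K, ∀ W : Set (WeakSpace 𝕜 Z), IsOpen W → toWeakSpace 𝕜 Z z ∈ W →
      ∃ q, z ∈ P q ∧ toWeakSpace 𝕜 Z '' P q ⊆ W := by
    intro z hz W hW hzW
    obtain ⟨s, hs⟩ := mem_iUnion.1 (hcov ⟨z, hz, rfl⟩)
    have hc1 : IsCompact (F s \ W) := (hcomp s).diff hW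
    have hc2 : IsCompact (π '' (F s \ W)) := hc1.image hπ
    have h1 : ∀ y ∈ π '' (F s \ W), ∃ V ∈ 𝒱, y ∈ V ∧ π (toWeakSpace 𝕜 Z z) ∉ V := by
      rintro y ⟨w, ⟨-, hw⟩, rfl⟩
      have hne : π w ≠ π (toWeakSpace 𝕜 Z z) := fun heq => hw (hinj heq ▸ hzW)
      obtain ⟨V, hV, hyV, hVsub⟩ := h𝒱.exists_subset_of_mem_open (u := {π (toWeakSpace 𝕜 Z z)}ᶜ)
        hne isOpen_compl_singleton
      exact ⟨V, hV, hyV, fun hmem => hVsub hmem rfl⟩
    choose! V hV1 hV2 hV3 using h1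
    obtain ⟨t, ht1, ht2⟩ := hc2.elim_nhds_subcover V fun y hy =>
      (h𝒱.isOpen (hV1 y hy)).mem_nhds (hV2 y hy)
    have hopen : IsOpen (W ∪ π ⁻¹' (⋃ y ∈ t, V y)) :=
      hW.union ((isOpen_biUnion fun y hy => h𝒱.isOpen (hV1 y (ht1 y hy))).preimage hπ)
    have hsub : F s ⊆ W ∪ π ⁻¹' (⋃ y ∈ t, V y) := by
      intro w hw
      by_cases hwW : w ∈ W
      · exact Or.inl hwW
      · exact Or.inr (ht2 ⟨w, ⟨hw, hwW⟩, rfl⟩)
    obtain ⟨B, hB1, hsB, hB2⟩ := hℬ.mem_nhds_iff.1 (husc s _ hopen hsub)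
    let Q : Finset 𝒱 := t.attach.image fun y => ⟨V y.1, hV1 y.1 (ht1 y.1 y.2)⟩
    refine ⟨(⟨B, hB1⟩, Q), ⟨hz, ⟨s, hsB, hs⟩, ?_⟩, ?_⟩
    · intro V' hV' hmem
      obtain ⟨y, -, rfl⟩ := Finset.mem_image.1 hV'
      exact hV3 y.1 (ht1 y.1 y.2) hmem
    · rintro _ ⟨w, ⟨-, ⟨s', hs'B, hs'⟩, hw⟩, rfl⟩
      rcases hB2 hs'B hs' with h2 | h2
      · exact h2
      · exfalso
        obtain ⟨y, hy, hyV⟩ := mem_iUnion₂.1 h2
        exact hw ⟨V y, hV1 y (ht1 y hy)⟩ (Finset.mem_image.2 ⟨⟨y, hy⟩, Finset.mem_attach _ _, rfl⟩)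
          hyV
  -- one point in each nonempty member of the network
  let C : Set Z := {z | ∃ q, ∃ hq : (P q).Nonempty, z = hq.some}
  have hC : #C < κ := by
    have h1 : #(ℬ × Finset 𝒱) < κ := by
      rw [mk_prod]
      have h2 : #(Finset 𝒱) ≤ ℵ₀ := mk_le_aleph0
      have h3 : Cardinal.lift.{u} #(Finset 𝒱) < κ := by
        exact (Cardinal.lift_le.2 h2).trans_lt (by simpa using h0)
      have h4 : Cardinal.lift.{0} #ℬ < κ := by simpa using hcard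
      exact mul_lt_of_lt h0.le h4 h3
    have h5 : C ⊆ Set.range fun q : {q // (P q).Nonempty} => q.2.some := by
      rintro z ⟨q, hq, rfl⟩
      exact ⟨⟨q, hq⟩, rfl⟩
    refine ((mk_le_mk_of_subset h5).trans (mk_range_le.trans ?_)).trans_lt h1
    exact mk_subtype_le _
  refine ⟨C, hC, ?_⟩
  intro z hz
  have hconv : Convex ℝ (Submodule.span 𝕜 C : Set Z) :=
    ((Submodule.span 𝕜 C).restrictScalars ℝ).convex
  have h1 : toWeakSpace 𝕜 Z z ∈ closure (toWeakSpace 𝕜 Z '' (Submodule.span 𝕜 C : Set Z)) := by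
    rw [mem_closure_iff]
    intro W hW hzW
    obtain ⟨q, hq1, hq2⟩ := hnet z hz W hW hzW
    have hne : (P q).Nonempty := ⟨z, hq1⟩
    refine ⟨toWeakSpace 𝕜 Z hne.some, hq2 ⟨_, hne.some_mem, rfl⟩, ?_⟩
    exact ⟨_, Submodule.subset_span ⟨q, hne, rfl⟩, rfl⟩
  rw [← hconv.toWeakSpace_closure 𝕜] at h1
  obtain ⟨y, hy, hyz⟩ := h1
  rwa [(toWeakSpace 𝕜 Z).injective hyz] at hy

end Vale.Agent.P129.H189
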