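import Vale.Agent.P129.H189.Red

/-! Lower bounds for the dimensions of barrelled spaces. -/

open Set Cardinal TopologicalSpace

namespace Vale.Agent.P129.H189

universe u

theorem not_barrelled_of_unbounded {𝕜 : Type} [RCLike 𝕜] {E : Type u} [NormedAddCommGroup E]
    [NormedSpace 𝕜 E] (g : ℕ → StrongDual 𝕜 E) (hg1 : ∀ R : ℝ, ∃ k, R < ‖g k‖)
    (hall : ∀ x, x ∈ Vale.Agent.P129.bddSub g) : ¬ BarrelledSpace 𝕜 E := by
  intro hb
  let p : ℕ → Seminorm 𝕜 E := fun k => (normSeminorm 𝕜 𝕜).comp (g k).toLinearMap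
  have hpc : ∀ k, Continuous (p k) := fun k => by
    have : Continuous fun x => ‖g k x‖ := (g k).continuous.norm
    exact this
  have hbdd : BddAbove (Set.range p) := by
    rw [Seminorm.bddAbove_range_iff]
    intro x
    obtain ⟨c, hc⟩ := hall x
    exact ⟨c, by rintro _ ⟨k, rfl⟩; exact hc k⟩
  have hcont := Seminorm.continuous_iSup p hpc hbdd
  rw [← Seminorm.coe_iSup_eq hbdd] at hcont
  obtain ⟨C, hC, hC'⟩ := Seminorm.bound_of_continuous_normedSpace (⨆ i, p i) hcont
  obtain ⟨k, hk⟩ := hg1 C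
  refine absurd hk (not_lt.2 ?_)
  refine ContinuousLinearMap.opNorm_le_bound _ hC.le fun x => ?_
  refine le_trans ?_ (hC' x)
  have := le_ciSup hbdd k
  exact this x

theorem barrelledLowerBound : BarrelledLowerBound.{u} := by
  intro 𝕜 _ E _ _ hinf hb
  by_contra hlt
  rw [not_le] at hlt
  let b := Module.Basis.ofVectorSpace 𝕜 E
  have hcard : #(Module.Basis.ofVectorSpaceIndex 𝕜 E) = Module.rank 𝕜 E := b.mk_eq_rank''
  have hinfι : Infinite (Module.Basis.ofVectorSpaceIndex 𝕜 E) := by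
    by_contra hfin
    rw [not_infinite_iff_finite] at hfin
    exact hinf (Module.Finite.of_basis b)
  refine Vale.Agent.P129.not_barrelled_of_span hinf
    (isMeagre_range_of_lt (by rw [hcard]; exact hlt)) (fun i => b i) b.span_eq hb

theorem dens_le_rank {𝕜 : Type} [RCLike 𝕜] {E : Type u} [NormedAddCommGroup E]
    [NormedSpace 𝕜 E] (hinf : ¬ FiniteDimensional 𝕜 E) (hb : BarrelledSpace 𝕜 E) :
    dens E ≤ Module.rank 𝕜 E := by
  have hN := barrelledLowerBound.{u} 𝕜 E hinf hb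
  let b := Module.Basis.ofVectorSpace 𝕜 E
  have hcard : #(Module.Basis.ofVectorSpaceIndex 𝕜 E) = Module.rank 𝕜 E := b.mk_eq_rank''
  have h1 : Dense (Submodule.span 𝕜 (Set.range b) : Set E) := by
    rw [b.span_eq]
    exact dense_univ
  refine (dens_le_of_dense_span _ h1).trans (max_le ?_ ?_)
  · rw [← hcard]
    exact mk_range_le
  · exact aleph0_lt_lift_nonMeagre.le.trans hN

theorem dens_lt_rank {𝕜 : Type} [RCLike 𝕜] {E : Type u} [NormedAddCommGroup E]
    [NormedSpace 𝕜 E] (hinf : ¬ FiniteDimensional 𝕜 E) (hb : BarrelledSpace 𝕜 E)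
    (hcof : (dens E).ord.cof = ℵ₀) : dens E < Module.rank 𝕜 E := by
  have hN := barrelledLowerBound.{u} 𝕜 E hinf hb
  refine lt_of_le_of_ne (dens_le_rank hinf hb) fun heq => ?_
  let b := Module.Basis.ofVectorSpace 𝕜 E
  have hcard : #(Module.Basis.ofVectorSpaceIndex 𝕜 E) = Module.rank 𝕜 E := b.mk_eq_rank''
  have hs : ℵ₀ < dens E := by
    rw [heq]
    exact aleph0_lt_lift_nonMeagre.trans_le hN
  obtain ⟨A, hA1, hA2, hA3⟩ := exists_increasing_small (Module.Basis.ofVectorSpaceIndex 𝕜 E)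
    (by rw [hcard, ← heq]; exact hs.le) (by rw [hcard, ← heq]; exact hcof)
  have hnd : ∀ n, ¬ Dense (Submodule.span 𝕜 (b '' A n) : Set E) := by
    intro n hn
    have h1 := dens_le_of_dense_span _ hn
    have h2 : #(b '' A n : Set E) < dens E := by
      rw [heq, ← hcard]
      exact mk_image_le.trans_lt (hA3 n)
    exact absurd h1 (not_le.2 (max_lt h2 hs))
  obtain ⟨g, hg1, hg2⟩ := exists_vanishing_functionals (𝕜 := 𝕜) (fun i => b i) A hA1 hA2 hnd
  refine not_barrelled_of_unbounded g hg1 (fun x => ?_) hb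
  have h1 : Submodule.span 𝕜 (Set.range b) ≤ Vale.Agent.P129.bddSub g :=
    Submodule.span_le.2 (by rintro _ ⟨i, rfl⟩; exact hg2 i)
  rw [b.span_eq] at h1
  exact h1 Submodule.mem_top

/-- The lower bounds for the dimensions of the dense barrelled subspaces. -/
theorem dense_lower {𝕜 : Type} [RCLike 𝕜] {X : Type u} [NormedAddCommGroup X]
    [NormedSpace 𝕜 X] (hinf : ¬ FiniteDimensional 𝕜 X) (E : Submodule 𝕜 X)
    (hE : Dense (E : Set X)) (hb : BarrelledSpace 𝕜 E) :
    max (dens X) (Cardinal.lift.{u} nonMeagre) ≤ Module.rank 𝕜 E ∧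
      ((dens X).ord.cof = ℵ₀ → dens X < Module.rank 𝕜 E) := by
  have hinfE := not_finiteDimensional_of_dense hinf E hE
  have h1 : dens X ≤ dens E := dens_le_of_dense_submodule E hE
  have h2 : dens E ≤ Module.rank 𝕜 E := dens_le_rank hinfE hb
  refine ⟨max_le (h1.trans h2) (barrelledLowerBound.{u} 𝕜 E hinfE hb), fun hcof => ?_⟩
  by_contra hlt
  rw [not_lt] at hlt
  have h3 : dens E = dens X := le_antisymm (h2.trans hlt) h1
  have h4 := dens_lt_rank hinfE hb (by rw [h3]; exact hcof)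
  exact absurd h4 (not_lt.2 (hlt.trans h1))

end Vale.Agent.P129.H189
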