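import Vale.Agent.P129.H189.Supp

/-! Densities of countable cofinality. -/

open Set Cardinal TopologicalSpace

namespace Vale.Agent.P129.H189

universe u

variable {𝕜 : Type} [RCLike 𝕜] {X : Type u} [NormedAddCommGroup X] [NormedSpace 𝕜 X]

theorem hasSep_of_separable (h : SeparableSpace X) (hinf : ¬ FiniteDimensional 𝕜 X) :
    HasSeparableQuotient 𝕜 X := by
  refine ⟨⊥, ?_, ?_, ?_⟩
  · simp
  · exact ((⊥ : Submodule 𝕜 X).mkQ_surjective.denseRange).separableSpace
      (⊥ : Submodule 𝕜 X).continuous_mkQ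
  · intro hf
    exact hinf (Module.Finite.equiv (Submodule.quotEquivOfEqBot (⊥ : Submodule 𝕜 X) rfl))

lemma aleph0_le_of_cof {κ : Cardinal.{u}} (h : κ.ord.cof = ℵ₀) : ℵ₀ ≤ κ := by
  rw [← h]
  simpa using Ordinal.cof_le_card κ.ord

/-- Functionals vanishing on larger and larger parts of a spanning family. -/
lemma exists_vanishing_functionals {D : Type u} (d : D → X) (A : ℕ → Set D) (hA : Monotone A)
    (hAu : (⋃ n, A n) = Set.univ) (hnd : ∀ n, ¬ Dense (Submodule.span 𝕜 (d '' A n) : Set X)) :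
    ∃ g : ℕ → StrongDual 𝕜 X, (∀ R : ℝ, ∃ k, R < ‖g k‖) ∧
      ∀ i, d i ∈ Vale.Agent.P129.bddSub g := by
  choose φ hφ1 hφ2 using fun n => Vale.Agent.P129.exists_norm_one_vanishing _ (hnd n)
  refine ⟨fun n => (n : 𝕜) • φ n, ?_, ?_⟩
  · intro R
    obtain ⟨k, hk⟩ := exists_nat_gt R
    refine ⟨k, ?_⟩
    rw [norm_smul, hφ1, mul_one, RCLike.norm_natCast]
    exact hk
  · intro i
    have hi : i ∈ ⋃ n, A n := by rw [hAu]; trivial
    obtain ⟨m, hm⟩ := mem_iUnion.1 hi
    refine ⟨m * ‖d i‖, fun k => ?_⟩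
    show ‖((k : 𝕜) • φ k) (d i)‖ ≤ m * ‖d i‖
    rw [_root_.smul_apply, norm_smul, RCLike.norm_natCast]
    by_cases hk : m ≤ k
    · rw [hφ2 k (d i) (Submodule.subset_span ⟨i, hA hk hm, rfl⟩), norm_zero, mul_zero]
      positivity
    · have h1 : (k : ℝ) ≤ m := by exact_mod_cast (not_le.1 hk).le
      have h2 : ‖φ k (d i)‖ ≤ ‖d i‖ := by
        simpa [hφ1 k] using (φ k).le_opNorm (d i)
      exact mul_le_mul h1 h2 (norm_nonneg _) (Nat.cast_nonneg _)

theorem countableCofinalityCase : CountableCofinalityCase.{u} := by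
  intro 𝕜 _ X _ _ _ hinf hcof
  obtain ⟨D, hD1, hD2⟩ := exists_dense_mk_eq X
  have h0 : ℵ₀ ≤ #D := by rw [hD2]; exact aleph0_le_of_cof hcof
  by_cases hs : dens X ≤ ℵ₀
  · exact hasSep_of_separable (separable_of_dens_le hs) hinf
  rw [not_le] at hs
  obtain ⟨A, hA1, hA2, hA3⟩ := exists_increasing_small D h0 (by rw [hD2]; exact hcof)
  have hnd : ∀ n, ¬ Dense (Submodule.span 𝕜 (Subtype.val '' A n) : Set X) := by
    intro n hn
    have h1 := dens_le_of_dense_span _ hn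
    have h2 : #(Subtype.val '' A n : Set X) < dens X := by
      rw [← hD2]
      exact mk_image_le.trans_lt (hA3 n)
    exact absurd h1 (not_le.2 (max_lt h2 hs))
  obtain ⟨g, hg1, hg2⟩ := exists_vanishing_functionals (𝕜 := 𝕜) (fun i : D => (i : X)) A hA1 hA2 hnd
  refine Vale.Agent.P129.exists_separable_quotient_of_unbounded g hg1 ?_
  exact hD1.mono fun x hx => hg2 ⟨x, hx⟩

end Vale.Agent.P129.H189
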