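import Vale.Agent.P129.H189.Det

/-! The support criterion for separable infinite-dimensional quotients. -/

open Set Cardinal TopologicalSpace

namespace Vale.Agent.P129.H189

universe u

/-- An infinite-dimensional subspace contains an independent sequence. -/
lemma exists_seq_of_infinite {𝕜 : Type} [Field 𝕜] {W : Type u} [AddCommGroup W] [Module 𝕜 W]
    (V : Submodule 𝕜 W) (hV : ¬ FiniteDimensional 𝕜 V) :
    ∃ h : ℕ → W, LinearIndependent 𝕜 h ∧ ∀ n, h n ∈ V := by
  have hinf' : Infinite (Module.Basis.ofVectorSpaceIndex 𝕜 V) := by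
    by_contra hfin
    rw [not_infinite_iff_finite] at hfin
    exact hV (Module.Finite.of_basis (Module.Basis.ofVectorSpace 𝕜 V))
  obtain ⟨e⟩ : Nonempty (ℕ ↪ Module.Basis.ofVectorSpaceIndex 𝕜 V) :=
    ⟨Infinite.natEmbedding _⟩
  have hg : LinearIndependent 𝕜 (fun n => Module.Basis.ofVectorSpace 𝕜 V (e n)) :=
    (Module.Basis.ofVectorSpace 𝕜 V).linearIndependent.comp e e.injective
  refine ⟨fun n => (Module.Basis.ofVectorSpace 𝕜 V (e n) : W), ?_, fun n => Subtype.mem _⟩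
  exact hg.map' V.subtype (Submodule.ker_subtype V)

theorem hasSep_of_supports {𝕜 : Type} [RCLike 𝕜] {X : Type u} [NormedAddCommGroup X]
    [NormedSpace 𝕜 X] [CompleteSpace X] (V : Submodule 𝕜 (StrongDual 𝕜 X)) (K H : Set X)
    (hV : ¬ FiniteDimensional 𝕜 V) (hd : Dense (Submodule.span 𝕜 (K ∪ H) : Set X))
    (hK : WeaklyDetermined 𝕜 (Cardinal.lift.{u} nonMeagre) K)
    (hH : ∀ f ∈ V, #{x : X | x ∈ H ∧ f x ≠ 0} < Cardinal.lift.{u} nonMeagre) :
    HasSeparableQuotient 𝕜 X := by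
  obtain ⟨h, hli, hhV⟩ := exists_seq_of_infinite V hV
  let N : Submodule 𝕜 X := ⨅ n, (h n).ker
  have hNmem : ∀ y, y ∈ N ↔ ∀ n, h n y = 0 := by
    intro y; simp only [Submodule.mem_iInf, LinearMap.mem_ker, ContinuousLinearMap.coe_coe, N]
  have hN : IsClosed (N : Set X) := by
    have : (N : Set X) = ⋂ n, {y | h n y = 0} := by
      ext y; simp only [SetLike.mem_coe, hNmem, mem_iInter, mem_ofPred_eq]
    rw [this]
    exact isClosed_iInter fun n => isClosed_eq (by (clear * -; fun_prop)) continuous_const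
  have hker : ∀ n, N ≤ (h n).ker := fun n => iInf_le _ n
  let h' : ℕ → StrongDual 𝕜 (X ⧸ N) := fun n =>
    { toLinearMap := N.liftQ (h n : X →ₗ[𝕜] 𝕜) (hker n)
      cont := by
        have hq : Topology.IsQuotientMap (N.mkQ : X → X ⧸ N) := isQuotientMap_quotient_mk'
        refine hq.continuous_iff.2 ?_
        exact (h n).continuous }
  have hh' : ∀ n x, h' n (N.mkQ x) = h n x := fun n x => by
    show N.liftQ (h n : X →ₗ[𝕜] 𝕜) (hker n) (N.mkQ x) = h n x
    simp
  have hsep : ∀ z : X ⧸ N, (∀ n, h' n z = 0) → z = 0 := by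
    intro z hz
    obtain ⟨x, rfl⟩ := N.mkQ_surjective z
    refine (Submodule.Quotient.mk_eq_zero N).2 ((hNmem x).2 fun n => ?_)
    rw [← hh']; exact hz n
  have hli' : LinearIndependent 𝕜 h' := by
    let P : StrongDual 𝕜 (X ⧸ N) →ₗ[𝕜] StrongDual 𝕜 X :=
      { toFun := fun f => f.comp (N.mkQL)
        map_add' := fun f g => by ext x; simp
        map_smul' := fun c f => by ext x; simp }
    have hP : ∀ n, P (h' n) = h n := by
      intro n
      ext x
      exact hh' n x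
    refine LinearIndependent.of_comp P ?_
    have : (P ∘ h') = h := funext hP
    rw [this]; exact hli
  have hinfZ : ¬ FiniteDimensional 𝕜 (X ⧸ N) := by
    intro hf
    have : FiniteDimensional 𝕜 (StrongDual 𝕜 (X ⧸ N)) := by infer_instance
    exact (hli'.finite : Finite ℕ).false
  -- both sets have a small generating set in the quotient
  obtain ⟨C, hC1, hC2⟩ := exists_small_of_determined aleph0_lt_lift_nonMeagre (N.mkQ '' K)
    (WeaklyDetermined.image_mkQ N hK) h' hsep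
  let D : Set (X ⧸ N) := C ∪ N.mkQ '' (⋃ n, {x : X | x ∈ H ∧ h n x ≠ 0})
  have hD : #D < Cardinal.lift.{u} nonMeagre := by
    refine (mk_union_le _ _).trans_lt (add_lt_of_lt aleph0_lt_lift_nonMeagre.le hC1 ?_)
    exact mk_image_le.trans_lt (mk_iUnion_lt_nonMeagre _ fun n => hH _ (hhV n))
  have hι : #(D ⊕ ℕ) < Cardinal.lift.{u} nonMeagre := by
    rw [mk_sum]
    refine add_lt_of_lt aleph0_lt_lift_nonMeagre.le ?_ ?_
    · simpa using hD
    · simpa using aleph0_lt_lift_nonMeagre.{u}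
  refine Vale.Agent.P129.HasSepQuot.of_quotient N (Vale.Agent.P129.hasSepQuot_of_total hinfZ
    (ι := D ⊕ ℕ) (isMeagre_range_of_lt hι) (Sum.elim (↑) fun _ => 0) ?_)
  set S : Submodule 𝕜 (X ⧸ N) :=
    Submodule.span 𝕜 (Set.range (Sum.elim (↑) fun _ => 0 : D ⊕ ℕ → X ⧸ N)) with hS
  have hDS : ∀ z ∈ D, z ∈ S := fun z hz => Submodule.subset_span ⟨Sum.inl ⟨z, hz⟩, rfl⟩
  have h1 : ∀ x ∈ K, N.mkQ x ∈ closure (S : Set (X ⧸ N)) := by
    intro x hx
    refine closure_mono (SetLike.coe_subset_coe.2 (Submodule.span_le.2 ?_)) (hC2 ⟨x, hx, rfl⟩)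
    exact fun z hz => hDS z (Or.inl hz)
  have h1' : ∀ x ∈ H, N.mkQ x ∈ closure (S : Set (X ⧸ N)) := by
    intro x hx
    by_cases hx0 : ∀ n, h n x = 0
    · have : N.mkQ x = 0 := (Submodule.Quotient.mk_eq_zero N).2 ((hNmem x).2 hx0)
      rw [this]
      exact subset_closure (Submodule.zero_mem _)
    · push Not at hx0
      obtain ⟨n, hn⟩ := hx0
      exact subset_closure (hDS _ (Or.inr ⟨x, mem_iUnion.2 ⟨n, hx, hn⟩, rfl⟩))
  have h2 : Submodule.span 𝕜 (K ∪ H) ≤ S.topologicalClosure.comap N.mkQ := by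
    rw [Submodule.span_le]
    rintro x (hx | hx)
    · exact h1 x hx
    · exact h1' x hx
  have h3 : ∀ x, N.mkQ x ∈ closure (S : Set (X ⧸ N)) := by
    intro x
    have h4 : closure (Submodule.span 𝕜 (K ∪ H) : Set X) ⊆ N.mkQ ⁻¹' closure (S : Set (X ⧸ N)) :=
      closure_minimal h2 (isClosed_closure.preimage N.continuous_mkQ)
    exact h4 (hd x)
  intro z
  obtain ⟨x, rfl⟩ := N.mkQ_surjective z
  exact h3 x

/-- A subspace containing an independent sequence is infinite-dimensional. -/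
lemma infinite_of_seq {𝕜 : Type} [Field 𝕜] {W : Type u} [AddCommGroup W] [Module 𝕜 W]
    (V : Submodule 𝕜 W) (h : ℕ → W) (hli : LinearIndependent 𝕜 h) (hV : ∀ n, h n ∈ V) :
    ¬ FiniteDimensional 𝕜 V := by
  intro hf
  have h1 : LinearIndependent 𝕜 (fun n => (⟨h n, hV n⟩ : V)) := by
    refine LinearIndependent.of_comp V.subtype ?_
    exact hli
  exact (h1.finite : Finite ℕ).false

/-- The functionals on a quotient, as functionals on the space. -/
noncomputable def pull {𝕜 : Type} [RCLike 𝕜] {X : Type u} [NormedAddCommGroup X]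
    [NormedSpace 𝕜 X] (M : Submodule 𝕜 X) : StrongDual 𝕜 (X ⧸ M) →ₗ[𝕜] StrongDual 𝕜 X where
  toFun f := f.comp (M.mkQL)
  map_add' f g := by ext x; simp
  map_smul' c f := by ext x; simp

lemma pull_injective {𝕜 : Type} [RCLike 𝕜] {X : Type u} [NormedAddCommGroup X]
    [NormedSpace 𝕜 X] (M : Submodule 𝕜 X) : Function.Injective (pull M) := by
  intro f g hfg
  ext z
  obtain ⟨x, rfl⟩ := M.mkQ_surjective z
  exact congrArg (fun q : StrongDual 𝕜 X => q x) hfg

lemma pull_eq_zero {𝕜 : Type} [RCLike 𝕜] {X : Type u} [NormedAddCommGroup X]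
    [NormedSpace 𝕜 X] (M : Submodule 𝕜 X) (f : StrongDual 𝕜 (X ⧸ M)) {x : X} (hx : x ∈ M) :
    pull M f x = 0 := by
  have h1 : M.mkQL x = 0 := (Submodule.Quotient.mk_eq_zero M).2 hx
  show f (M.mkQL x) = 0
  rw [h1, map_zero]

theorem supports_of_hasSep {𝕜 : Type} [RCLike 𝕜] {X : Type u} [NormedAddCommGroup X]
    [NormedSpace 𝕜 X] (hX : HasSeparableQuotient 𝕜 X) :
    ∃ (V : Submodule 𝕜 (StrongDual 𝕜 X)) (H : Set X),
      ¬ FiniteDimensional 𝕜 V ∧ Dense (Submodule.span 𝕜 H : Set X) ∧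
        ∀ f ∈ V, {x : X | x ∈ H ∧ f x ≠ 0}.Countable := by
  obtain ⟨M, hM, hsep, hinf⟩ := hX
  obtain ⟨h, hli⟩ := Vale.Agent.P129.exists_linearIndependent_functionals hinf
  have hV : ¬ FiniteDimensional 𝕜 (LinearMap.range (pull M)) :=
    infinite_of_seq _ (fun n => pull M (h n)) (hli.map' (pull M)
      (LinearMap.ker_eq_bot.2 (pull_injective M))) (fun n => ⟨h n, rfl⟩)
  obtain ⟨s, hs1, hs2⟩ := exists_countable_dense (X ⧸ M)
  choose l hl using M.mkQ_surjective
  refine ⟨LinearMap.range (pull M), (M : Set X) ∪ l '' s, hV, ?_, ?_⟩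
  · have hsub : M.mkQ ⁻¹' s ⊆ (Submodule.span 𝕜 ((M : Set X) ∪ l '' s) : Set X) := by
      intro x hx
      have h1 : x - l (M.mkQ x) ∈ M := by
        refine (Submodule.Quotient.mk_eq_zero M).1 ?_
        show M.mkQ (x - l (M.mkQ x)) = 0
        rw [map_sub, hl, sub_self]
      have h2 : x = (x - l (M.mkQ x)) + l (M.mkQ x) := by abel
      rw [h2]
      exact Submodule.add_mem _ (Submodule.subset_span (Or.inl h1))
        (Submodule.subset_span (Or.inr ⟨_, hx, rfl⟩))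
    refine Dense.mono hsub ?_
    exact hs2.preimage (Submodule.isOpenMap_mkQ M)
  · rintro f ⟨g, rfl⟩
    refine (hs1.image l).mono ?_
    rintro x ⟨hx | hx, hfx⟩
    · exact absurd (pull_eq_zero M g hx) hfx
    · exact hx

lemma weaklyDetermined_empty {𝕜 : Type} [RCLike 𝕜] {X : Type u} [NormedAddCommGroup X]
    [NormedSpace 𝕜 X] {κ : Cardinal.{u}} (h0 : 0 < κ) : WeaklyDetermined 𝕜 κ (∅ : Set X) := by
  refine ⟨PEmpty, ⊥, ∅, fun _ => ∅, ?_, ?_, fun _ => isCompact_empty, fun t => t.elim, ?_⟩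
  · exact @isTopologicalBasis_of_isOpen_of_nhds _ ⊥ _ (fun _ h => absurd h (notMem_empty _))
      fun a => a.elim
  · rw [mk_eq_zero]
    exact h0
  · rw [image_empty]
    exact empty_subset _

theorem supportCriterion : SupportCriterion.{u} := by
  intro 𝕜 _ X _ _ _
  have key : (∃ (V : Submodule 𝕜 (StrongDual 𝕜 X)) (H : Set X),
      ¬ FiniteDimensional 𝕜 V ∧ Dense (Submodule.span 𝕜 H : Set X) ∧
        ∀ f ∈ V, {x : X | x ∈ H ∧ f x ≠ 0}.Countable) →
      ∃ (V : Submodule 𝕜 (StrongDual 𝕜 X)) (K H : Set X),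
        ¬ FiniteDimensional 𝕜 V ∧ Dense (Submodule.span 𝕜 (K ∪ H) : Set X) ∧
          WeaklyDetermined 𝕜 (Cardinal.lift.{u} nonMeagre) K ∧
            ∀ f ∈ V, #{x : X | x ∈ H ∧ f x ≠ 0} < Cardinal.lift.{u} nonMeagre := by
    rintro ⟨V, H, hV, hd, hH⟩
    refine ⟨V, ∅, H, hV, by rwa [empty_union],
      weaklyDetermined_empty (aleph0_pos.trans aleph0_lt_lift_nonMeagre), fun f hf => ?_⟩
    exact (mk_le_aleph0_iff.2 (hH f hf).to_subtype).trans_lt aleph0_lt_lift_nonMeagre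
  have back : (∃ (V : Submodule 𝕜 (StrongDual 𝕜 X)) (K H : Set X),
        ¬ FiniteDimensional 𝕜 V ∧ Dense (Submodule.span 𝕜 (K ∪ H) : Set X) ∧
          WeaklyDetermined 𝕜 (Cardinal.lift.{u} nonMeagre) K ∧
            ∀ f ∈ V, #{x : X | x ∈ H ∧ f x ≠ 0} < Cardinal.lift.{u} nonMeagre) →
      HasSeparableQuotient 𝕜 X := by
    rintro ⟨V, K, H, hV, hd, hK, hH⟩
    exact hasSep_of_supports V K H hV hd hK hH
  exact ⟨⟨supports_of_hasSep, fun h => back (key h)⟩, ⟨fun h => key (supports_of_hasSep h), back⟩⟩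

end Vale.Agent.P129.H189
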